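import Vale.Agent.P038.U877.Gap

namespace Vale.Agent.P038.U877

open Finset
open scoped Classical

variable {V : Type*} [Fintype V]

/-- outer feasible pairs -/
def Out (D : V → V → Prop) (B C : V → Finset V) : Prop :=
  (∀ a, N D {a} ⊆ B a) ∧ (∀ b, N D {b} ⊆ C b) ∧ ∀ a b, a ≠ b → b ∈ B a → a ∉ C b

/-- inner feasible pairs -/
def Inn (D : V → V → Prop) (X Y : V → Finset V) : Prop :=
  (∀ a, a ∈ X a) ∧ (∀ b, b ∈ Y b) ∧ ∀ a b, a ≠ b → b ∈ N D (X a) → a ∉ N D (Y b)

noncomputable def cost (D : V → V → Prop) (B C : V → Finset V) : ℤ :=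
  ∑ a, h D (B a) + ∑ b, h D (C b)

theorem self_mem_N (D : V → V → Prop) {a : V} {S : Finset V} (ha : a ∈ S) : a ∈ N D S :=
  subset_N D S ha

theorem adj_mem_N {D : V → V → Prop} {a z : V} {S : Finset V} (ha : a ∈ S) (haz : D a z) :
    z ∈ N D S := mem_N.2 ⟨a, ha, Or.inr haz⟩

theorem Out_N {D : V → V → Prop} {X Y : V → Finset V} (hI : Inn D X Y) :
    Out D (fun a => N D (X a)) (fun b => N D (Y b)) := by
  obtain ⟨h1, h2, h3⟩ := hI
  exact ⟨fun a => N_mono (singleton_subset_iff.2 (h1 a)),
    fun b => N_mono (singleton_subset_iff.2 (h2 b)), h3⟩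

theorem Inn_id {D : V → V → Prop} (hori : Ori D) : Inn D (fun a => {a}) (fun b => {b}) := by
  refine ⟨fun a => mem_singleton_self a, fun b => mem_singleton_self b, ?_⟩
  intro a b hab hb ha
  obtain ⟨x, hx, hxb⟩ := mem_N.1 hb
  obtain ⟨y, hy, hya⟩ := mem_N.1 ha
  rw [mem_singleton] at hx hy
  subst hx hy
  rcases hxb with hh | hxb
  · exact hab hh
  rcases hya with hh | hya
  · exact hab hh.symm
  exact hori.2 _ _ hxb hya

/-- double counting -/
theorem dc (P : V → V → Prop) [∀ a, DecidablePred (fun b => P a b)]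
    [∀ b, DecidablePred (fun a => P a b)] :
    ∑ a, ((univ.filter (fun b => P a b)).card : ℤ) = ∑ b, ((univ.filter (fun a => P a b)).card : ℤ) := by
  simp only [card_filter]
  push_cast
  rw [sum_comm]

theorem sum_compl (F : V → Finset V) :
    ∑ b : V, ((univ.filter (fun z => b ∉ F z)).card : ℤ)
      = ∑ z : V, ((Fintype.card V : ℤ) - (F z).card) := by
  rw [dc (fun b z => b ∉ F z)]
  apply sum_congr rfl
  intro z _
  have : univ.filter (fun a => a ∉ F z) = (F z)ᶜ := by
    ext x; simp
  rw [this, card_compl]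
  have := card_le_univ (F z)
  push_cast [Nat.cast_sub this]
  rfl

/-- from the outer minimiser to an inner pair -/
theorem inner_le (D : V → V → Prop) (hori : Ori D) (B C : V → Finset V) (hO : Out D B C)
    (hmin : ∀ B' C', Out D B' C' → cost D B C ≤ cost D B' C') :
    ∃ X Y : V → Finset V, Inn D X Y ∧ cost D X Y ≤ cost D B C := by
  obtain ⟨hB, hC, hBC⟩ := hO
  have haB : ∀ a, a ∈ B a := fun a => hB a (self_mem_N D (mem_singleton_self a))
  have haC : ∀ a, a ∈ C a := fun a => hC a (self_mem_N D (mem_singleton_self a))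
  let U : V → Finset V := fun a => insert a (univ.filter (fun b => a ∉ C b))
  have mU : ∀ a b, b ∈ U a ↔ b = a ∨ a ∉ C b := by
    intro a b; simp [U]
  have hBU : ∀ a, B a ⊆ U a := by
    intro a b hb
    rw [mU]
    by_cases e : b = a
    · exact Or.inl e
    · exact Or.inr (hBC a b (fun e' => e e'.symm) hb)
  -- no reversed arcs in U
  have hrev : ∀ a y, D y a → y ∉ U a := by
    intro a y hya hy
    rw [mU] at hy
    rcases hy with rfl | hy
    · exact hori.1 _ hya
    · exact hy (hC y (adj_mem_N (mem_singleton_self y) hya))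
  let M : V → Finset V := fun z => univ.filter (fun b => ∀ a, (a = z ∨ D a z) → b ∈ U a)
  let m : V → Finset V := fun z => univ.filter (fun b => ∀ a, (a = z ∨ D a z) → b ∈ B a)
  have hM : ∀ z b, b ∈ M z ↔ ∀ a, (a = z ∨ D a z) → b ∈ U a := by intro z b; simp [M]
  have hm : ∀ z b, b ∈ m z ↔ ∀ a, (a = z ∨ D a z) → b ∈ B a := by intro z b; simp [m]
  have hR : ∀ a Y, B a ⊆ Y → Y ⊆ U a → h D (B a) ≤ h D Y := by
    intro a Y hY1 hY2
    have hO' : Out D (Function.update B a Y) C := by
      refine ⟨?_, hC, ?_⟩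
      · intro a'
        by_cases e : a' = a
        · subst e; rw [Function.update_self]; exact (hB a').trans hY1
        · rw [Function.update_of_ne e]; exact hB a'
      · intro a' b hab hb
        by_cases e : a' = a
        · subst e
          rw [Function.update_self] at hb
          rcases (mU a' b).1 (hY2 hb) with e' | e'
          · exact absurd e'.symm hab
          · exact e'
        · rw [Function.update_of_ne e] at hb
          exact hBC a' b hab hb
    have h1 := hmin _ _ hO'
    unfold cost at h1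
    have h2 : ∑ a', h D (Function.update B a Y a') = ∑ a', h D (B a') - h D (B a) + h D Y := by
      rw [← Finset.add_sum_erase univ (fun a' => h D (B a')) (mem_univ a),
        ← Finset.add_sum_erase univ (fun a' => h D (Function.update B a Y a')) (mem_univ a)]
      have : ∑ x ∈ univ.erase a, h D (Function.update B a Y x) = ∑ x ∈ univ.erase a, h D (B x) := by
        apply sum_congr rfl
        intro x hx
        rw [Function.update_of_ne (ne_of_mem_erase hx)]
      rw [this, Function.update_self]
      ring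
    linarith
  have hCC : ∀ b, ∀ S : Finset V, (∀ a ∈ S, b ∈ U a ∧ b ∉ B a) →
      S.card ≤ (univ.filter (fun z => b ∈ M z ∧ z ∈ N D S)).card := by
    intro b S hS
    have hne : ∀ a ∈ S, a ≠ b := by
      rintro a ha rfl
      exact (hS a ha).2 (haB a)
    have hSC : Disjoint (C b) S := by
      rw [disjoint_left]
      intro a ha haS
      rcases (mU a b).1 (hS a haS).1 with e | e
      · exact hne a haS e.symm
      · exact e ha
    have hO' : Out D B (Function.update C b (C b ∪ S)) := by
      refine ⟨hB, ?_, ?_⟩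
      · intro b'
        by_cases e : b' = b
        · subst e; rw [Function.update_self]; exact (hC b').trans subset_union_left
        · rw [Function.update_of_ne e]; exact hC b'
      · intro a b' hab hb
        by_cases e : b' = b
        · subst e
          rw [Function.update_self, mem_union]
          rintro (ha | ha)
          · exact hBC a b' hab hb ha
          · exact (hS a ha).2 hb
        · rw [Function.update_of_ne e]
          exact hBC a b' hab hb
    have h1 := hmin _ _ hO'
    unfold cost at h1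
    have h2 : ∑ b', h D (Function.update C b (C b ∪ S) b')
        = ∑ b', h D (C b') - h D (C b) + h D (C b ∪ S) := by
      rw [← Finset.add_sum_erase univ (fun a' => h D (C a')) (mem_univ b),
        ← Finset.add_sum_erase univ (fun a' => h D (Function.update C b (C b ∪ S) a')) (mem_univ b)]
      have : ∑ x ∈ univ.erase b, h D (Function.update C b (C b ∪ S) x)
          = ∑ x ∈ univ.erase b, h D (C x) := by
        apply sum_congr rfl
        intro x hx
        rw [Function.update_of_ne (ne_of_mem_erase hx)]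
      rw [this, Function.update_self]
      ring
    have h3 : h D (C b) ≤ h D (C b ∪ S) := by linarith
    have h4 : (C b ∪ S).card = (C b).card + S.card := card_union_of_disjoint hSC
    have h5 : (N D (C b ∪ S)).card = (N D (C b)).card + (N D S \ N D (C b)).card := by
      rw [N_union, ← union_sdiff_self_eq_union, card_union_of_disjoint disjoint_sdiff]
    have h6 : S.card ≤ (N D S \ N D (C b)).card := by
      unfold h at h3
      rw [h4, h5] at h3
      push_cast at h3
      omega
    refine h6.trans (card_le_card ?_)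
    intro z hz
    rw [mem_sdiff] at hz
    simp only [mem_filter, mem_univ, true_and]
    refine ⟨?_, hz.1⟩
    rw [hM]
    intro a ha
    rw [mU]
    right
    intro haC'
    exact hz.2 (mem_N.2 ⟨a, haC', ha⟩)
  have hgap := gap D B U hBU m M hm hM hR hCC
  let Y : V → Finset V := fun x => insert x (univ.filter (fun z => x ∉ N D (U z)))
  have mY : ∀ x z, z ∈ Y x ↔ z = x ∨ x ∉ N D (U z) := by intro x z; simp [Y]
  have haU : ∀ a, a ∈ U a := fun a => hBU a (haB a)
  have haM : ∀ a, a ∈ M a := by
    intro a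
    rw [hM]
    rintro a' (rfl | h')
    · exact haU _
    · exact hBU a' (hB a' (adj_mem_N (mem_singleton_self _) h'))
  have ham : ∀ a, a ∈ m a := by
    intro a
    rw [hm]
    rintro a' (rfl | h')
    · exact haB _
    · exact hB a' (adj_mem_N (mem_singleton_self _) h')
  have hmM : ∀ z, m z ⊆ M z := fun z b hb => (hM z b).2 (fun a ha => hBU a ((hm z b).1 hb a ha))
  -- main exclusion: b in N(M a), a ≠ b => a not in N (Y b)
  have hexcl : ∀ a b, a ≠ b → b ∈ N D (M a) → a ∉ N D (Y b) := by
    intro a b hab hb ha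
    obtain ⟨y, hy, hyb⟩ := mem_N.1 hb
    obtain ⟨z, hz, hza⟩ := mem_N.1 ha
    have hyU : y ∈ U z := (hM a y).1 hy z hza
    have hbU : b ∈ N D (U z) := mem_N.2 ⟨y, hyU, hyb⟩
    rcases (mY b z).1 hz with rfl | hz'
    · -- z = b
      rcases hza with e | hba
      · exact hab e.symm
      · rcases hyb with rfl | hyb
        · -- y = b in M a, so b in U a, b -> a
          exact hrev a _ hba ((hM a _).1 hy a (Or.inl rfl))
        · exact hrev _ y hyb hyU
    · exact hz' hbU
  refine ⟨m, Y, ⟨ham, fun b => (mY b b).2 (Or.inl rfl), ?_⟩, ?_⟩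
  · intro a b hab hb
    exact hexcl a b hab (N_mono (hmM a) hb)
  · -- cost
    have c1 : ∑ b, ((Y b).card : ℤ) = (Fintype.card V : ℤ) + ∑ z, ((Fintype.card V : ℤ) - (N D (U z)).card) := by
      rw [← sum_compl (fun z => N D (U z))]
      have : ∀ b, ((Y b).card : ℤ) = 1 + ((univ.filter (fun z => b ∉ N D (U z))).card : ℤ) := by
        intro b
        have : (Y b).card = (univ.filter (fun z => b ∉ N D (U z))).card + 1 := by
          apply card_insert_of_notMem
          intro hh
          exact (mem_filter.1 hh).2 (self_mem_N D (haU b))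
        rw [this]; push_cast; ring
      rw [sum_congr rfl (fun b _ => this b), sum_add_distrib]
      simp
    have c2 : ∑ b, ((N D (Y b)).card : ℤ) ≤ (Fintype.card V : ℤ) + ∑ z, ((Fintype.card V : ℤ) - (N D (M z)).card) := by
      have e1 : ∑ b, ((N D (Y b)).card : ℤ) = ∑ a, ((univ.filter (fun b => a ∈ N D (Y b))).card : ℤ) := by
        rw [dc (fun a b => a ∈ N D (Y b))]
        apply sum_congr rfl
        intro b _
        congr 2
        ext x; simp
      rw [e1]
      have e2 : ∀ a, ((univ.filter (fun b => a ∈ N D (Y b))).card : ℤ)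
          ≤ 1 + ((Fintype.card V : ℤ) - (N D (M a)).card) := by
        intro a
        have s1 : univ.filter (fun b => a ∈ N D (Y b)) ⊆ insert a ((N D (M a))ᶜ) := by
          intro b hb
          have hb' := (mem_filter.1 hb).2
          rw [mem_insert, mem_compl]
          by_cases e : b = a
          · exact Or.inl e
          · right
            intro hbM
            exact hexcl a b (fun e' => e e'.symm) hbM hb'
        have s2 := (card_le_card s1).trans (card_insert_le _ _)
        rw [card_compl] at s2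
        have s3 := card_le_univ (N D (M a))
        omega
      calc ∑ a, ((univ.filter (fun b => a ∈ N D (Y b))).card : ℤ)
          ≤ ∑ a, (1 + ((Fintype.card V : ℤ) - (N D (M a)).card)) := sum_le_sum (fun a _ => e2 a)
        _ = _ := by rw [sum_add_distrib]; simp
    have c3 : ∑ a, ((U a).card : ℤ) = (Fintype.card V : ℤ) + ∑ b, ((Fintype.card V : ℤ) - (C b).card) := by
      rw [← sum_compl (fun b => C b)]
      have : ∀ a, ((U a).card : ℤ) = 1 + ((univ.filter (fun b => a ∉ C b)).card : ℤ) := by
        intro a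
        have : (U a).card = (univ.filter (fun b => a ∉ C b)).card + 1 := by
          apply card_insert_of_notMem
          intro hh
          exact (mem_filter.1 hh).2 (haC a)
        rw [this]; push_cast; ring
      rw [sum_congr rfl (fun b _ => this b), sum_add_distrib]
      simp
    have c4 : (Fintype.card V : ℤ) + ∑ b, ((Fintype.card V : ℤ) - (N D (C b)).card) ≤ ∑ a, ((M a).card : ℤ) := by
      rw [← sum_compl (fun b => N D (C b))]
      have : ∀ a, 1 + ((univ.filter (fun b => a ∉ N D (C b))).card : ℤ) ≤ ((M a).card : ℤ) := by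
        intro a
        have s1 : insert a (univ.filter (fun b => a ∉ N D (C b))) ⊆ M a := by
          intro b hb
          rcases mem_insert.1 hb with rfl | hb
          · exact haM _
          · have hb' := (mem_filter.1 hb).2
            rw [hM]
            intro a' ha'
            rw [mU]
            right
            intro hh
            exact hb' (mem_N.2 ⟨a', hh, ha'⟩)
        have s2 := card_le_card s1
        rw [card_insert_of_notMem] at s2
        · omega
        · intro hh
          exact (mem_filter.1 hh).2 (self_mem_N D (haC a))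
      calc (Fintype.card V : ℤ) + ∑ b : V, ((univ.filter (fun z => b ∉ N D (C z))).card : ℤ)
          = ∑ b : V, (1 + ((univ.filter (fun z => b ∉ N D (C z))).card : ℤ)) := by
            rw [sum_add_distrib]; simp
        _ ≤ _ := sum_le_sum (fun a _ => this a)
    unfold cost
    have d1 : ∑ b, h D (Y b) = ∑ b, ((N D (Y b)).card : ℤ) - ∑ b, ((Y b).card : ℤ) := by
      rw [← sum_sub_distrib]; rfl
    have d2 : ∑ b, h D (C b) = ∑ b, ((N D (C b)).card : ℤ) - ∑ b, ((C b).card : ℤ) := by
      rw [← sum_sub_distrib]; rfl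
    have d3 : ∑ b, h D (U b) = ∑ b, ((N D (U b)).card : ℤ) - ∑ b, ((U b).card : ℤ) := by
      rw [← sum_sub_distrib]; rfl
    have d4 : ∑ b, h D (M b) = ∑ b, ((N D (M b)).card : ℤ) - ∑ b, ((M b).card : ℤ) := by
      rw [← sum_sub_distrib]; rfl
    rw [sum_sub_distrib, sum_sub_distrib] at hgap
    simp only [sum_sub_distrib] at c1 c2 c3 c4
    linarith

/-- there is no oriented graph all of whose vertices are bad -/
theorem no_bad [Nonempty V] (D₀ : V → V → Prop) (hori₀ : Ori D₀) (hbad₀ : Bad D₀) : False := by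
  -- arc-minimal
  obtain ⟨D, hori, hbad, hminD⟩ : ∃ D : V → V → Prop, Ori D ∧ Bad D ∧
      ∀ D' : V → V → Prop, Ori D' → Bad D' → arcs D ≤ arcs D' := by
    have hex : ∃ n, ∃ D : V → V → Prop, Ori D ∧ Bad D ∧ arcs D = n := ⟨_, D₀, hori₀, hbad₀, rfl⟩
    obtain ⟨D, h1, h2, h3⟩ := Nat.find_spec hex
    refine ⟨D, h1, h2, ?_⟩
    intro D' h1' h2'
    rw [h3]
    exact Nat.find_min' hex ⟨D', h1', h2', rfl⟩
  have hG := G_strict D hori hbad hminD
  have hGle : ∀ X : Finset V, h D (N D X) ≤ h D X := by
    intro X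
    by_cases hX : (N D X \ X).Nonempty
    · exact (hG X hX).le
    · rw [not_nonempty_iff_eq_empty, sdiff_eq_empty_iff_subset] at hX
      rw [Subset.antisymm hX (subset_N D X)]
  have hGeq : ∀ X : Finset V, h D X ≤ h D (N D X) → N D X ⊆ X := by
    intro X hX
    by_contra hcon
    have : (N D X \ X).Nonempty := by
      rw [nonempty_iff_ne_empty]
      intro e
      exact hcon (sdiff_eq_empty_iff_subset.1 e)
    exact absurd (hG X this) (not_lt.2 hX)
  -- minimisers
  obtain ⟨p, hp, hpmin⟩ := exists_min_image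
    (univ.filter (fun p : (V → Finset V) × (V → Finset V) => Inn D p.1 p.2))
    (fun p => cost D p.1 p.2) ⟨(fun a => {a}, fun b => {b}), by
      rw [mem_filter]; exact ⟨mem_univ _, Inn_id hori⟩⟩
  have hpI : Inn D p.1 p.2 := (mem_filter.1 hp).2
  obtain ⟨q, hq, hqmin⟩ := exists_min_image
    (univ.filter (fun p : (V → Finset V) × (V → Finset V) => Out D p.1 p.2))
    (fun p => cost D p.1 p.2) ⟨(fun a => N D (p.1 a), fun b => N D (p.2 b)), by
      rw [mem_filter]; exact ⟨mem_univ _, Out_N hpI⟩⟩
  have hqO : Out D q.1 q.2 := (mem_filter.1 hq).2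
  obtain ⟨X', Y', hI', hc'⟩ := inner_le D hori q.1 q.2 hqO (fun B' C' hO' =>
    hqmin (B', C') (mem_filter.2 ⟨mem_univ _, hO'⟩))
  have hA : cost D p.1 p.2 ≤ cost D X' Y' := hpmin (X', Y') (mem_filter.2 ⟨mem_univ _, hI'⟩)
  have hB : cost D q.1 q.2 ≤ cost D (fun a => N D (p.1 a)) (fun b => N D (p.2 b)) :=
    hqmin (fun a => N D (p.1 a), fun b => N D (p.2 b)) (mem_filter.2 ⟨mem_univ _, Out_N hpI⟩)
  have hcmp : cost D p.1 p.2 ≤ cost D (fun a => N D (p.1 a)) (fun b => N D (p.2 b)) := by linarith
  unfold cost at hcmp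
  have hX1 : ∑ a, h D (N D (p.1 a)) ≤ ∑ a, h D (p.1 a) := sum_le_sum (fun a _ => hGle _)
  have hY1 : ∑ a, h D (N D (p.2 a)) ≤ ∑ a, h D (p.2 a) := sum_le_sum (fun a _ => hGle _)
  have hX2 : ∑ a, h D (N D (p.1 a)) = ∑ a, h D (p.1 a) := by linarith
  have hX3 : ∀ a, N D (p.1 a) ⊆ p.1 a := by
    intro a
    have := (sum_eq_sum_iff_of_le (fun a _ => hGle (p.1 a))).1 hX2 a (mem_univ a)
    exact hGeq _ this.ge
  -- a minimal nonempty closed set
  obtain ⟨S, hS, hSmin⟩ := exists_min_image
    (univ.filter (fun S : Finset V => S.Nonempty ∧ N D S ⊆ S)) (fun S => S.card)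
    ⟨univ, by rw [mem_filter]; exact ⟨mem_univ _, univ_nonempty, subset_univ _⟩⟩
  obtain ⟨hSne, hScl⟩ := (mem_filter.1 hS).2
  obtain ⟨a, ha⟩ := hSne
  have hpos : 0 < (N1 D a).card := lt_of_le_of_lt (Nat.zero_le _) (hbad a)
  obtain ⟨b, hb⟩ := card_pos.1 hpos
  have hab : D a b := by simpa [N1] using hb
  have hbS : b ∈ S := hScl (adj_mem_N ha hab)
  have hmem : p.1 b ∩ S ∈ univ.filter (fun S : Finset V => S.Nonempty ∧ N D S ⊆ S) := by
    rw [mem_filter]
    refine ⟨mem_univ _, ⟨b, mem_inter.2 ⟨hpI.1 b, hbS⟩⟩, ?_⟩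
    apply subset_inter
    · exact (N_mono inter_subset_left).trans (hX3 b)
    · exact (N_mono inter_subset_right).trans hScl
  have hcard := hSmin _ hmem
  have hSeq : p.1 b ∩ S = S := eq_of_subset_of_card_le inter_subset_right hcard
  have haX : a ∈ p.1 b := by
    rw [← hSeq] at ha
    exact (mem_inter.1 ha).1
  have hne : b ≠ a := by
    rintro rfl
    exact hori.1 _ hab
  exact hpI.2.2 b a hne (self_mem_N D haX) (adj_mem_N (hpI.2.1 a) hab)

/-- Seymour's second neighbourhood conjecture. -/
theorem seymour (V : Type*) [Fintype V] [Nonempty V] (D : V → V → Prop)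
    (hirr : ∀ v, ¬ D v v) (hasym : ∀ u v, D u v → ¬ D v u) :
    ∃ v : V, (univ.filter (fun u => D v u)).card
      ≤ (univ.filter (fun z => z ≠ v ∧ ¬ D v z ∧ ∃ u, D v u ∧ D u z)).card := by
  by_contra hcon
  push Not at hcon
  exact no_bad D ⟨hirr, hasym⟩ hcon

/-- Seymour's second neighbourhood conjecture, with `Set.ncard`. -/
theorem seymour_ncard (V : Type*) [Finite V] [Nonempty V] (D : V → V → Prop)
    (hirr : ∀ v, ¬ D v v) (hasym : ∀ u v, D u v → ¬ D v u) :
    ∃ v : V, Set.ncard {x : V | D v x} ≤
      Set.ncard {x : V | x ≠ v ∧ ¬ D v x ∧ ∃ y, D v y ∧ D y x} := by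
  have hF : Fintype V := Fintype.ofFinite V
  by_contra hcon
  push Not at hcon
  apply no_bad D ⟨hirr, hasym⟩
  intro v
  have h1 := hcon v
  have e1 : {x : V | D v x} = ((N1 D v : Finset V) : Set V) := by
    ext x
    simp [N1]
  have e2 : {x : V | x ≠ v ∧ ¬ D v x ∧ ∃ y, D v y ∧ D y x} = ((N2 D v : Finset V) : Set V) := by
    ext x
    simp [N2]
  rw [e1, e2, Set.ncard_coe_finset, Set.ncard_coe_finset] at h1
  exact h1

end Vale.Agent.P038.U877
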