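import Vale.Agent.P038.U877.SNC

namespace Vale.Agent.P038.U877

open Finset
open scoped Classical

variable {V : Type*} [Fintype V]

/-- the interval of sets between `P ∪ (W ∩ Q)` and `P ∪ Q` -/
noncomputable def Iv (P Q W : Finset V) : Finset (Finset V) :=
  univ.filter (fun Y => P ∪ (W ∩ Q) ⊆ Y ∧ Y ⊆ P ∪ Q)

theorem mem_Iv {P Q W Y : Finset V} : Y ∈ Iv P Q W ↔ P ∪ (W ∩ Q) ⊆ Y ∧ Y ⊆ P ∪ Q := by
  simp [Iv]

theorem Iv_ne (P Q W : Finset V) : (Iv P Q W).Nonempty :=
  ⟨P ∪ Q, mem_Iv.2 ⟨union_subset_union_right inter_subset_right, Subset.refl _⟩⟩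

noncomputable def k (D : V → V → Prop) (P Q W : Finset V) : ℤ :=
  (Iv P Q W).inf' (Iv_ne P Q W) (h D)

theorem k_le {D : V → V → Prop} {P Q W Y : Finset V} (hY : Y ∈ Iv P Q W) : k D P Q W ≤ h D Y :=
  inf'_le _ hY

theorem exists_k (D : V → V → Prop) (P Q W : Finset V) : ∃ Y ∈ Iv P Q W, k D P Q W = h D Y :=
  exists_mem_eq_inf' _ _

theorem k_mono {D : V → V → Prop} {P Q W W' : Finset V} (hW : W ⊆ W') :
    k D P Q W ≤ k D P Q W' := by
  obtain ⟨Y, hY, e⟩ := exists_k D P Q W'
  rw [e]
  apply k_le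
  rw [mem_Iv] at hY ⊢
  exact ⟨(union_subset_union_right (inter_subset_inter_right hW)).trans hY.1, hY.2⟩

theorem k_eq_of {D : V → V → Prop} {P Q W W' : Finset V} (hW : P ∪ (W ∩ Q) = P ∪ (W' ∩ Q)) :
    k D P Q W = k D P Q W' := by
  unfold k
  have : Iv P Q W = Iv P Q W' := by unfold Iv; rw [hW]
  simp only [this]

theorem k_univ {D : V → V → Prop} {P Q : Finset V} (hPQ : P ⊆ Q) : k D P Q univ = h D Q := by
  obtain ⟨Y, hY, e⟩ := exists_k D P Q univ
  rw [e]
  rw [mem_Iv, univ_inter, union_eq_right.2 hPQ] at hY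
  rw [Subset.antisymm hY.2 hY.1]

theorem k_empty {D : V → V → Prop} {P Q : Finset V} (hPQ : P ⊆ Q)
    (hR : ∀ Y, P ⊆ Y → Y ⊆ Q → h D P ≤ h D Y) : k D P Q ∅ = h D P := by
  apply le_antisymm
  · apply k_le
    rw [mem_Iv]
    simp
  · obtain ⟨Y, hY, e⟩ := exists_k D P Q ∅
    rw [e]
    rw [mem_Iv, empty_inter, union_empty, union_eq_right.2 hPQ] at hY
    exact hR Y hY.1 hY.2

/-- the key comparison of increments -/
theorem k_step {D : V → V → Prop} {P Q p q W : Finset V} {b : V} (hp : p ⊆ P) (hq : q ⊆ Q)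
    (hpq : p ⊆ q) (hPQ : P ⊆ Q) (hb : b ∈ q) :
    k D P Q (insert b W) - k D P Q W ≤ k D p q (insert b W) - k D p q W := by
  obtain ⟨Y, hY, e⟩ := exists_k D p q (insert b W)
  obtain ⟨Y', hY', e'⟩ := exists_k D P Q W
  rw [mem_Iv, union_eq_right.2 hpq] at hY
  rw [mem_Iv, union_eq_right.2 hPQ] at hY'
  have hbY : b ∈ Y := hY.1 (mem_union_right _ (mem_inter.2 ⟨mem_insert_self _ _, hb⟩))
  have h1 : k D P Q (insert b W) ≤ h D (Y ∪ Y') := by
    apply k_le
    rw [mem_Iv, union_eq_right.2 hPQ]
    constructor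
    · intro x hx
      rw [mem_union, mem_inter, mem_insert] at hx
      rw [mem_union]
      rcases hx with hx | ⟨rfl | hx, hxQ⟩
      · exact Or.inr (hY'.1 (mem_union_left _ hx))
      · exact Or.inl hbY
      · exact Or.inr (hY'.1 (mem_union_right _ (mem_inter.2 ⟨hx, hxQ⟩)))
    · exact union_subset (hY.2.trans hq) hY'.2
  have h2 : k D p q W ≤ h D (Y ∩ Y') := by
    apply k_le
    rw [mem_Iv, union_eq_right.2 hpq]
    constructor
    · intro x hx
      rw [mem_union, mem_inter] at hx
      rw [mem_inter]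
      rcases hx with hx | ⟨hx, hxq⟩
      · exact ⟨hY.1 (mem_union_left _ hx), hY'.1 (mem_union_left _ (hp hx))⟩
      · exact ⟨hY.1 (mem_union_right _ (mem_inter.2 ⟨mem_insert_of_mem hx, hxq⟩)),
          hY'.1 (mem_union_right _ (mem_inter.2 ⟨hx, hq hxq⟩))⟩
    · exact inter_subset_left.trans hY.2
  have h3 := h_submod D Y Y'
  rw [e, e']
  linarith

/-- Hall + monotone comparison -/
theorem sum_le_of_hall {D : V → V → Prop} {S Z : Finset V} {α γ : V → ℤ}
    (hall : ∀ T ⊆ S, T.card ≤ (Z.filter (fun z => z ∈ N D T)).card)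
    (hag : ∀ a ∈ S, ∀ z ∈ Z, z ∈ N D {a} → α a ≤ γ z) (hγ : ∀ z ∈ Z, 0 ≤ γ z) :
    ∑ a ∈ S, α a ≤ ∑ z ∈ Z, γ z := by
  have hH := (Finset.all_card_le_biUnion_card_iff_exists_injective
    (fun a : {a // a ∈ S} => Z.filter (fun z => z ∈ N D {a.1}))).1 (by
      intro s
      have h1 := hall (s.image Subtype.val) (by
        intro x hx
        rw [mem_image] at hx
        obtain ⟨y, _, rfl⟩ := hx
        exact y.2)
      rw [card_image_of_injective _ Subtype.val_injective] at h1
      refine h1.trans (card_le_card ?_)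
      intro z hz
      rw [mem_filter, mem_N] at hz
      obtain ⟨hzZ, a, ha, haz⟩ := hz
      rw [mem_image] at ha
      obtain ⟨y, hy, rfl⟩ := ha
      rw [mem_biUnion]
      exact ⟨y, hy, mem_filter.2 ⟨hzZ, mem_N.2 ⟨y.1, mem_singleton_self _, haz⟩⟩⟩)
  obtain ⟨f, hf, hfm⟩ := hH
  have e1 : ∑ a ∈ S, α a = ∑ a : {a // a ∈ S}, α a.1 := (Finset.sum_coe_sort S α).symm
  rw [e1]
  calc ∑ a : {a // a ∈ S}, α a.1 ≤ ∑ a : {a // a ∈ S}, γ (f a) := by
        apply sum_le_sum
        intro a _
        have := mem_filter.1 (hfm a)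
        exact hag a.1 a.2 (f a) this.1 this.2
    _ = ∑ z ∈ univ.image f, γ z := by
        rw [sum_image]
        intro x _ y _ hxy
        exact hf hxy
    _ ≤ ∑ z ∈ Z, γ z := by
        apply sum_le_sum_of_subset_of_nonneg
        · intro z hz
          rw [mem_image] at hz
          obtain ⟨a, _, rfl⟩ := hz
          exact (mem_filter.1 (hfm a)).1
        · intro z hz _
          exact hγ z hz

/-- the gap theorem (787) -/
theorem gap (D : V → V → Prop) (B U : V → Finset V) (hBU : ∀ a, B a ⊆ U a)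
    (m M : V → Finset V)
    (hm : ∀ z b, b ∈ m z ↔ ∀ a, (a = z ∨ D a z) → b ∈ B a)
    (hM : ∀ z b, b ∈ M z ↔ ∀ a, (a = z ∨ D a z) → b ∈ U a)
    (hR : ∀ a Y, B a ⊆ Y → Y ⊆ U a → h D (B a) ≤ h D Y)
    (hC : ∀ b, ∀ S : Finset V, (∀ a ∈ S, b ∈ U a ∧ b ∉ B a) →
      S.card ≤ (univ.filter (fun z => b ∈ M z ∧ z ∈ N D S)).card) :
    ∑ a, (h D (U a) - h D (B a)) ≤ ∑ z, (h D (M z) - h D (m z)) := by
  have hmM : ∀ z, m z ⊆ M z := fun z b hb => (hM z b).2 (fun a ha => hBU a ((hm z b).1 hb a ha))
  have hmB : ∀ z a, (a = z ∨ D a z) → m z ⊆ B a := fun z a ha b hb => (hm z b).1 hb a ha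
  have hMU : ∀ z a, (a = z ∨ D a z) → M z ⊆ U a := fun z a ha b hb => (hM z b).1 hb a ha
  -- (R')
  have hR' : ∀ z Y, m z ⊆ Y → Y ⊆ M z → h D (m z) ≤ h D Y := by
    intro z Y hY1 hY2
    have hT : ∀ T : Finset V, (∀ a ∈ T, a = z ∨ D a z) →
        h D (Y.filter (fun b => ∀ a ∈ T, b ∈ B a)) ≤ h D Y := by
      intro T
      induction T using Finset.induction_on with
      | empty => intro _; simp
      | insert a T haT ih =>
        intro hTz
        have ih' := ih (fun a' ha' => hTz a' (mem_insert_of_mem ha'))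
        have haz := hTz a (mem_insert_self _ _)
        set Y' := Y.filter (fun b => ∀ a ∈ T, b ∈ B a) with hY'
        have e : Y.filter (fun b => ∀ a' ∈ insert a T, b ∈ B a') = Y' ∩ B a := by
          ext b
          simp only [mem_filter, mem_inter, mem_insert, forall_eq_or_imp, hY']
          tauto
        rw [e]
        have h1 := h_submod D Y' (B a)
        have h2 : h D (B a) ≤ h D (Y' ∪ B a) := by
          apply hR a _ subset_union_right
          apply union_subset _ (hBU a)
          exact (filter_subset _ _).trans (hY2.trans (hMU z a haz))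
        linarith
    have e : m z = Y.filter (fun b => ∀ a ∈ (univ.filter (fun a => a = z ∨ D a z)), b ∈ B a) := by
      ext b
      simp only [mem_filter, mem_univ, true_and]
      constructor
      · intro hb
        exact ⟨hY1 hb, (hm z b).1 hb⟩
      · intro hb
        exact (hm z b).2 hb.2
    rw [e]
    apply hT
    intro a ha
    exact (mem_filter.1 ha).2
  -- induction over W
  have main : ∀ W : Finset V, ∑ a, (k D (B a) (U a) W - k D (B a) (U a) ∅)
      ≤ ∑ z, (k D (m z) (M z) W - k D (m z) (M z) ∅) := by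
    intro W
    induction W using Finset.induction_on with
    | empty => simp
    | insert b W hbW ih =>
      have step : ∑ a, (k D (B a) (U a) (insert b W) - k D (B a) (U a) W)
          ≤ ∑ z, (k D (m z) (M z) (insert b W) - k D (m z) (M z) W) := by
        set α : V → ℤ := fun a => k D (B a) (U a) (insert b W) - k D (B a) (U a) W with hα
        set γ : V → ℤ := fun z => k D (m z) (M z) (insert b W) - k D (m z) (M z) W with hγ
        have hγ0 : ∀ z, 0 ≤ γ z := fun z => sub_nonneg.2 (k_mono (subset_insert _ _))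
        have hα0 : ∀ a, ¬ (b ∈ U a ∧ b ∉ B a) → α a = 0 := by
          intro a ha
          apply sub_eq_zero.2
          apply k_eq_of
          ext x
          simp only [mem_union, mem_inter, mem_insert]
          constructor
          · rintro (hx | ⟨rfl | hx, hxU⟩)
            · exact Or.inl hx
            · left
              by_contra hxB
              exact ha ⟨hxU, hxB⟩
            · exact Or.inr ⟨hx, hxU⟩
          · rintro (hx | ⟨hx, hxU⟩)
            · exact Or.inl hx
            · exact Or.inr ⟨Or.inr hx, hxU⟩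
        have e1 : ∑ a, α a = ∑ a ∈ univ.filter (fun a => b ∈ U a ∧ b ∉ B a), α a := by
          symm
          apply sum_subset (subset_univ _)
          intro a _ ha
          apply hα0
          intro hh
          exact ha (mem_filter.2 ⟨mem_univ _, hh⟩)
        rw [e1]
        have e2 : ∑ a ∈ univ.filter (fun a => b ∈ U a ∧ b ∉ B a), α a
            ≤ ∑ z ∈ univ.filter (fun z => b ∈ M z), γ z := by
          apply sum_le_of_hall (D := D)
          · intro T hT
            have := hC b T (fun a ha => (mem_filter.1 (hT ha)).2)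
            refine this.trans (card_le_card ?_)
            intro z hz
            simp only [mem_filter, mem_univ, true_and] at hz ⊢
            exact hz
          · intro a _ z hz haz
            have hbz := (mem_filter.1 hz).2
            obtain ⟨a', ha', hh⟩ := mem_N.1 haz
            rw [mem_singleton] at ha'
            subst ha'
            exact k_step (hmB z a' hh) (hMU z a' hh) (hmM z) (hBU a') hbz
          · intro z _
            exact hγ0 z
        refine e2.trans ?_
        apply sum_le_sum_of_subset_of_nonneg (subset_univ _)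
        intro z _ _
        exact hγ0 z
      have e3 : ∑ a, (k D (B a) (U a) (insert b W) - k D (B a) (U a) ∅)
          = ∑ a, (k D (B a) (U a) (insert b W) - k D (B a) (U a) W)
            + ∑ a, (k D (B a) (U a) W - k D (B a) (U a) ∅) := by
        rw [← sum_add_distrib]
        apply sum_congr rfl
        intro a _
        ring
      have e4 : ∑ z, (k D (m z) (M z) (insert b W) - k D (m z) (M z) ∅)
          = ∑ z, (k D (m z) (M z) (insert b W) - k D (m z) (M z) W)
            + ∑ z, (k D (m z) (M z) W - k D (m z) (M z) ∅) := by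
        rw [← sum_add_distrib]
        apply sum_congr rfl
        intro a _
        ring
      rw [e3, e4]
      exact add_le_add step ih
  have hfin := main univ
  have e1 : ∑ a, (k D (B a) (U a) univ - k D (B a) (U a) ∅) = ∑ a, (h D (U a) - h D (B a)) := by
    apply sum_congr rfl
    intro a _
    rw [k_univ (hBU a), k_empty (hBU a) (hR a)]
  have e2 : ∑ z, (k D (m z) (M z) univ - k D (m z) (M z) ∅) = ∑ z, (h D (M z) - h D (m z)) := by
    apply sum_congr rfl
    intro z _
    rw [k_univ (hmM z), k_empty (hmM z) (hR' z)]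
  rw [e1, e2] at hfin
  exact hfin

end Vale.Agent.P038.U877
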