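import Mathlib

namespace Vale.Agent.P038.U877

open Finset
open scoped Classical

variable {V : Type*} [Fintype V]

/-- closed out-neighbourhood of a set -/
noncomputable def N (D : V → V → Prop) (S : Finset V) : Finset V :=
  univ.filter (fun z => ∃ a ∈ S, a = z ∨ D a z)

theorem mem_N {D : V → V → Prop} {S : Finset V} {z : V} :
    z ∈ N D S ↔ ∃ a ∈ S, a = z ∨ D a z := by simp [N]

theorem subset_N (D : V → V → Prop) (S : Finset V) : S ⊆ N D S := by
  intro x hx
  exact mem_N.2 ⟨x, hx, Or.inl rfl⟩

theorem N_mono {D : V → V → Prop} {S T : Finset V} (h : S ⊆ T) : N D S ⊆ N D T := by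
  intro x hx
  obtain ⟨a, ha, h'⟩ := mem_N.1 hx
  exact mem_N.2 ⟨a, h ha, h'⟩

theorem N_union (D : V → V → Prop) (S T : Finset V) : N D (S ∪ T) = N D S ∪ N D T := by
  ext z
  simp only [mem_N, mem_union]
  constructor
  · rintro ⟨a, ha | ha, h⟩
    · exact Or.inl ⟨a, ha, h⟩
    · exact Or.inr ⟨a, ha, h⟩
  · rintro (⟨a, ha, h⟩ | ⟨a, ha, h⟩)
    · exact ⟨a, Or.inl ha, h⟩
    · exact ⟨a, Or.inr ha, h⟩

noncomputable def h (D : V → V → Prop) (S : Finset V) : ℤ := ((N D S).card : ℤ) - S.card

theorem h_submod (D : V → V → Prop) (S T : Finset V) :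
    h D (S ∪ T) + h D (S ∩ T) ≤ h D S + h D T := by
  have h1 := card_union_add_card_inter S T
  have h2 := card_union_add_card_inter (N D S) (N D T)
  have h3 : (N D (S ∩ T)).card ≤ (N D S ∩ N D T).card :=
    card_le_card (subset_inter (N_mono inter_subset_left) (N_mono inter_subset_right))
  rw [← N_union] at h2
  unfold h
  omega

noncomputable def N1 (D : V → V → Prop) (v : V) : Finset V := univ.filter (fun u => D v u)

noncomputable def N2 (D : V → V → Prop) (v : V) : Finset V :=
  univ.filter (fun z => z ≠ v ∧ ¬ D v z ∧ ∃ u, D v u ∧ D u z)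

def Ori (D : V → V → Prop) : Prop := (∀ v, ¬ D v v) ∧ ∀ u v, D u v → ¬ D v u

def Bad (D : V → V → Prop) : Prop := ∀ v, (N2 D v).card < (N1 D v).card

noncomputable def arcs (D : V → V → Prop) : ℕ :=
  (univ.filter (fun p : V × V => D p.1 p.2)).card

/-- 294's theorem (G), unweighted form -/
theorem G_strict (D : V → V → Prop) (hori : Ori D) (hbad : Bad D)
    (hmin : ∀ D' : V → V → Prop, Ori D' → Bad D' → arcs D ≤ arcs D')
    (X : Finset V) (hX : (N D X \ X).Nonempty) : h D (N D X) < h D X := by
  by_contra hcon
  push Not at hcon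
  set L := N D X \ X with hL
  have hXN := subset_N D X
  have hLX : X ∪ L = N D X := by rw [hL]; exact union_sdiff_of_subset hXN
  have hNN : N D (N D X) = N D X ∪ N D L := by
    conv_lhs => rw [← hLX]
    exact N_union D X L
  let d : Finset V → ℤ := fun T => ((N D T \ X).card : ℤ) - 2 * T.card
  have hcardL : (L.card : ℤ) = h D X := by
    unfold h
    have := card_sdiff_add_card_eq_card hXN
    rw [← hL] at this
    omega
  have hdL : 0 ≤ d L := by
    have e1 : N D L \ X = L ∪ (N D L \ N D X) := by
      ext z
      simp only [mem_sdiff, mem_union]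
      constructor
      · rintro ⟨hz, hzX⟩
        by_cases hzN : z ∈ N D X
        · exact Or.inl (by rw [hL]; exact mem_sdiff.2 ⟨hzN, hzX⟩)
        · exact Or.inr ⟨hz, hzN⟩
      · rintro (hz | ⟨hz, hzN⟩)
        · exact ⟨subset_N D L hz, by rw [hL] at hz; exact (mem_sdiff.1 hz).2⟩
        · exact ⟨hz, fun hzX => hzN (hXN hzX)⟩
    have e2 : Disjoint L (N D L \ N D X) := by
      rw [disjoint_left]
      intro z hz hz'
      rw [hL] at hz
      exact (mem_sdiff.1 hz').2 (mem_sdiff.1 hz).1
    have e3 : (N D (N D X)).card = (N D X).card + (N D L \ N D X).card := by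
      rw [hNN, ← union_sdiff_self_eq_union, card_union_of_disjoint disjoint_sdiff]
    have e4 : (N D L \ X).card = L.card + (N D L \ N D X).card := by
      rw [e1, card_union_of_disjoint e2]
    have e5 : h D (N D X) = (N D L \ N D X).card := by
      unfold h; omega
    show 0 ≤ ((N D L \ X).card : ℤ) - 2 * L.card
    rw [e4]
    push_cast
    omega
  obtain ⟨T, hTm, hTmin⟩ := exists_min_image L.ssubsets d
    ⟨∅, by rw [mem_ssubsets]; exact Finset.empty_ssubset.2 hX⟩
  rw [mem_ssubsets] at hTm
  have hd0 : d ∅ = 0 := by simp [d, N]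
  have hT0 : d T ≤ 0 := by
    rw [← hd0]
    exact hTmin _ (by rw [mem_ssubsets]; exact Finset.empty_ssubset.2 hX)
  have key : ∀ D' : Finset V, D' ⊆ L \ T → 2 * D'.card ≤ (N D D' \ (N D T ∪ X)).card := by
    intro D' hD'
    have hsub : T ∪ D' ⊆ L := union_subset hTm.1 (hD'.trans sdiff_subset)
    have hge : d T ≤ d (T ∪ D') := by
      by_cases heq : T ∪ D' = L
      · rw [heq]; exact hT0.trans hdL
      · exact hTmin _ (by rw [mem_ssubsets]; exact Finset.ssubset_iff_subset_ne.2 ⟨hsub, heq⟩)
    have e1 : N D (T ∪ D') \ X = (N D T \ X) ∪ (N D D' \ (N D T ∪ X)) := by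
      rw [N_union]
      ext z
      simp only [mem_sdiff, mem_union]
      tauto
    have e2 : Disjoint (N D T \ X) (N D D' \ (N D T ∪ X)) := by
      rw [disjoint_left]
      intro z hz hz'
      simp only [mem_sdiff, mem_union] at hz hz'
      tauto
    have e3 : (N D (T ∪ D') \ X).card = (N D T \ X).card + (N D D' \ (N D T ∪ X)).card := by
      rw [e1, card_union_of_disjoint e2]
    have e4 : (T ∪ D').card = T.card + D'.card := by
      rw [card_union_of_disjoint]
      rw [disjoint_left]
      intro z hz hz'
      exact (mem_sdiff.1 (hD' hz')).2 hz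
    have hge' : ((N D T \ X).card : ℤ) - 2 * T.card ≤ ((N D (T ∪ D') \ X).card : ℤ) - 2 * (T ∪ D').card := hge
    rw [e3, e4] at hge'
    push_cast at hge'
    omega
  -- the new graph
  let E : V → V → Prop := fun a b => D a b ∧ ¬ (a ∈ X ∧ b ∉ X ∧ b ∉ T)
  have hEori : Ori E := ⟨fun v hv => hori.1 v hv.1, fun u v huv hvu => hori.2 u v huv.1 hvu.1⟩
  have harc : arcs E < arcs D := by
    obtain ⟨z, hzL, hzT⟩ := Finset.exists_of_ssubset hTm
    have hz := hzL
    rw [hL, mem_sdiff] at hz
    obtain ⟨y, hy, hyz⟩ := mem_N.1 hz.1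
    have hyz' : D y z := by
      rcases hyz with rfl | h'
      · exact absurd hy hz.2
      · exact h'
    apply card_lt_card
    rw [Finset.ssubset_iff_of_subset]
    · exact ⟨(y, z), by simpa using hyz', by simp [E, hy, hz.2, hzT]⟩
    · intro p hp
      simp only [mem_filter, mem_univ, true_and] at hp ⊢
      exact hp.1
  have hEbad : Bad E := by
    intro v
    by_cases hv : v ∈ X
    · set Dv := N1 D v \ (X ∪ T) with hDv
      have hDvL : Dv ⊆ L \ T := by
        intro z hz
        rw [hDv, mem_sdiff, mem_union] at hz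
        push Not at hz
        rw [mem_sdiff, hL, mem_sdiff]
        refine ⟨⟨mem_N.2 ⟨v, hv, Or.inr ?_⟩, hz.2.1⟩, hz.2.2⟩
        simpa [N1] using hz.1
      have hk := key Dv hDvL
      have e1 : N1 E v = N1 D v \ Dv := by
        ext z
        simp only [N1, E, mem_filter, mem_univ, true_and, hDv, mem_sdiff, mem_union]
        tauto
      have e2 : Dv ⊆ N1 D v := by rw [hDv]; exact sdiff_subset
      have e3 : (N1 E v).card + Dv.card = (N1 D v).card := by
        rw [e1]; exact card_sdiff_add_card_eq_card e2
      have e4 : N2 E v ∪ (N D Dv \ (N D T ∪ X)) ⊆ N2 D v ∪ Dv := by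
        intro z hz
        rw [mem_union] at hz ⊢
        rcases hz with hz | hz
        · simp only [N2, mem_filter, mem_univ, true_and, E] at hz ⊢
          obtain ⟨hzv, hnz, u, hvu, huz⟩ := hz
          by_cases hDz : D v z
          · right
            rw [hDv, mem_sdiff, mem_union]
            refine ⟨by simpa [N1] using hDz, ?_⟩
            intro hh
            apply hnz
            refine ⟨hDz, ?_⟩
            rintro ⟨_, h2, h3⟩
            rcases hh with hh | hh
            · exact h2 hh
            · exact h3 hh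
          · left
            exact ⟨hzv, hDz, u, hvu.1, huz.1⟩
        · rw [mem_sdiff, mem_union] at hz
          push Not at hz
          obtain ⟨hz1, hz2, hz3⟩ := hz
          have hzT : z ∉ T := fun hh => hz2 (subset_N D T hh)
          by_cases hDz : D v z
          · right
            rw [hDv, mem_sdiff, mem_union]
            refine ⟨by simpa [N1] using hDz, ?_⟩
            push Not
            exact ⟨hz3, hzT⟩
          · left
            obtain ⟨c, hc, hcz⟩ := mem_N.1 hz1
            have hvc : D v c := by
              have := e2 hc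
              simpa [N1] using this
            rcases hcz with rfl | hcz
            · exact absurd hvc hDz
            · simp only [N2, mem_filter, mem_univ, true_and]
              refine ⟨?_, hDz, c, hvc, hcz⟩
              rintro rfl
              exact hz3 hv
      have e5 : Disjoint (N2 E v) (N D Dv \ (N D T ∪ X)) := by
        rw [disjoint_left]
        intro z hz hz'
        rw [mem_sdiff, mem_union] at hz'
        push Not at hz'
        obtain ⟨hz1, hz2, hz3⟩ := hz'
        simp only [N2, mem_filter, mem_univ, true_and, E] at hz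
        obtain ⟨hzv, hnz, u, hvu, huz⟩ := hz
        have hzT : z ∉ T := fun hh => hz2 (subset_N D T hh)
        by_cases huX : u ∈ X
        · exact huz.2 ⟨huX, hz3, hzT⟩
        · by_cases huT : u ∈ T
          · exact hz2 (mem_N.2 ⟨u, huT, Or.inr huz.1⟩)
          · exact hvu.2 ⟨hv, huX, huT⟩
      have e6 := card_le_card e4
      rw [card_union_of_disjoint e5] at e6
      have e7 := card_union_le (N2 D v) Dv
      have e8 := hbad v
      omega
    · have e1 : N1 E v = N1 D v := by
        ext z
        simp [N1, E, hv]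
      have e2 : N2 E v ⊆ N2 D v := by
        intro z hz
        simp only [N2, mem_filter, mem_univ, true_and, E] at hz ⊢
        obtain ⟨hzv, hnz, u, hvu, huz⟩ := hz
        refine ⟨hzv, ?_, u, hvu.1, huz.1⟩
        intro hD
        exact hnz ⟨hD, fun hh => hv hh.1⟩
      rw [e1]
      exact lt_of_le_of_lt (card_le_card e2) (hbad v)
  exact absurd (hmin E hEori hEbad) (not_le.2 harc)

end Vale.Agent.P038.U877
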